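import Mathlib

/-!
Bin packing instances, the optimum `OPT` and the Gilmore-Gomory configuration LP value `LP`.
-/

namespace Vale.Agent.Lib.P302

/-- The list `I` of item sizes can be distributed into `k` bins, each of total size at most `1`. -/
def Packable (I : List ℚ) (k : ℕ) : Prop :=
  ∃ f : Fin I.length → Fin k, ∀ j : Fin k,
    ∑ i ∈ Finset.univ.filter (fun i => f i = j), I.get i ≤ 1

/-- `OPT I` is the least number of bins into which the items of `I` can be partitioned. -/
noncomputable def OPT (I : List ℚ) : ℕ := sInf {k | Packable I k}

/-- A configuration of `I`: a vector of nonnegative integers indexed by the distinct sizes of `I`,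
of total size at most `1` (a size may occur more often than its multiplicity in `I`). -/
def Config (I : List ℚ) : Type :=
  {c : {σ // σ ∈ I.toFinset} → ℕ // ∑ σ : {σ // σ ∈ I.toFinset}, σ.1 * (c σ : ℚ) ≤ 1}

/-- The objective values of the feasible solutions of the configuration LP of `I`: nonnegative
weights `z` on finitely many configurations covering every size `σ` at least `n_σ` times,
where `n_σ` is the multiplicity of `σ` in `I`. -/
def LPValues (I : List ℚ) : Set ℝ :=
  {v | ∃ z : Config I →₀ ℝ, (∀ c, 0 ≤ z c) ∧
    (∀ σ : {σ // σ ∈ I.toFinset}, (I.count σ.1 : ℝ) ≤ z.sum fun c w => (c.1 σ : ℝ) * w) ∧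
    v = z.sum fun _ w => w}

/-- `LP I` is the value of the Gilmore-Gomory configuration LP of `I`. -/
noncomputable def LP (I : List ℚ) : ℝ := sInf (LPValues I)

end Vale.Agent.Lib.P302
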