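import Mathlib
import Vale.Agent.Lib.P302.Defs

/-!
Reflection tools: a checkable search refuting packings and a lemma bounding `LP` from a list of
weighted configurations.
-/

namespace Vale.Agent.Lib.P302

/-- Relational form of the search: every item in turn is placed into a bin with enough room. -/
def Fits : List ℕ → Multiset ℕ → Prop
  | [], _ => True
  | x :: xs, bins => ∃ v ∈ bins, x ≤ v ∧ Fits xs ((v - x) ::ₘ bins.erase v)

/-- The search. State: items left and residual bin capacities. Equal capacities are tried once,
capacities below the global minimum item `m` are dropped, and a total-volume test prunes. -/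
def fit (m : ℕ) : List ℕ → List ℕ → Bool
  | [], _ => true
  | x :: xs, bins =>
    (bins.dedup).any fun v =>
      decide (x ≤ v) &&
        (decide (xs.sum ≤ (((v - x) :: bins.erase v).filter (fun u => m ≤ u)).sum) &&
          fit m xs (((v - x) :: bins.erase v).filter (fun u => m ≤ u)))

lemma Fits.sum_le {xs : List ℕ} {bins : Multiset ℕ} (h : Fits xs bins) : xs.sum ≤ bins.sum := by
  induction xs generalizing bins with
  | nil => simp
  | cons x xs ih =>
    obtain ⟨v, hv, hxv, hrest⟩ := h
    have h1 := ih hrest
    have h2 : ((v - x) ::ₘ bins.erase v).sum + x = bins.sum := by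
      rw [Multiset.sum_cons]
      have := Multiset.sum_erase hv
      omega
    simp only [List.sum_cons]
    omega

lemma Fits.cons {xs : List ℕ} {bins : Multiset ℕ} (a : ℕ) (h : Fits xs bins) :
    Fits xs (a ::ₘ bins) := by
  induction xs generalizing bins with
  | nil => trivial
  | cons x xs ih =>
    obtain ⟨v, hv, hxv, hrest⟩ := h
    refine ⟨v, Multiset.mem_cons_of_mem hv, hxv, ?_⟩
    have e : (v - x) ::ₘ (a ::ₘ bins).erase v = a ::ₘ ((v - x) ::ₘ bins.erase v) := by
      rw [Multiset.cons_swap]
      congr 1
      by_cases hav : a = v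
      · subst hav
        rw [Multiset.erase_cons_head, Multiset.cons_erase hv]
      · rw [Multiset.erase_cons_tail_of_mem hv]
    rw [e]
    exact ih hrest

lemma filter_erase_of_pos (p : ℕ → Prop) [DecidablePred p] (s : Multiset ℕ) (v : ℕ) (hv : p v) :
    (s.erase v).filter p = (s.filter p).erase v := by
  ext a
  by_cases ha : a = v
  · subst ha
    simp [Multiset.count_filter, hv, Multiset.count_erase_self]
  · by_cases hp : p a <;> simp [Multiset.count_filter, hp, Multiset.count_erase_of_ne ha]

lemma Fits.filter {m : ℕ} {xs : List ℕ} (hm : ∀ x ∈ xs, m ≤ x) {bins : Multiset ℕ}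
    (h : Fits xs bins) : Fits xs (bins.filter (fun u => m ≤ u)) := by
  induction xs generalizing bins with
  | nil => trivial
  | cons x xs ih =>
    obtain ⟨v, hv, hxv, hrest⟩ := h
    have hmx : m ≤ x := hm x (by simp)
    have hmv : m ≤ v := le_trans hmx hxv
    refine ⟨v, Multiset.mem_filter.2 ⟨hv, hmv⟩, hxv, ?_⟩
    have h3 := ih (fun y hy => hm y (List.mem_cons_of_mem _ hy)) hrest
    have e0 : (bins.erase v).filter (fun u => m ≤ u) = (bins.filter (fun u => m ≤ u)).erase v :=
      filter_erase_of_pos _ _ _ hmv
    by_cases hc : m ≤ v - x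
    · rw [Multiset.filter_cons_of_pos _ hc, e0] at h3
      exact h3
    · rw [Multiset.filter_cons_of_neg _ hc, e0] at h3
      exact h3.cons _

/-- Soundness of the search. -/
lemma fit_of_fits {m : ℕ} {xs : List ℕ} (hm : ∀ x ∈ xs, m ≤ x) {l : List ℕ}
    (h : Fits xs (l : Multiset ℕ)) : fit m xs l = true := by
  induction xs generalizing l with
  | nil => simp [fit]
  | cons x xs ih =>
    obtain ⟨v, hv, hxv, hrest⟩ := h
    have hvl : v ∈ l := by simpa using hv
    simp only [fit, List.any_eq_true, Bool.and_eq_true, decide_eq_true_eq]
    refine ⟨v, List.mem_dedup.2 hvl, hxv, ?_, ?_⟩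
    all_goals
      have hm' : ∀ y ∈ xs, m ≤ y := fun y hy => hm y (List.mem_cons_of_mem _ hy)
      have e : ((v - x) ::ₘ (l : Multiset ℕ).erase v)
          = (((v - x) :: l.erase v : List ℕ) : Multiset ℕ) := by
        rw [Multiset.coe_erase, Multiset.cons_coe]
      rw [e] at hrest
      have h4 := Fits.filter hm' hrest
      rw [Multiset.filter_coe] at h4
    · have := h4.sum_le
      simpa using this
    · exact ih hm' h4

/-- From an assignment of items to bins with residual capacities `r` to the relational form. -/
lemma fits_of_assign {k : ℕ} (xs : List ℕ) (r : Fin k → ℕ) (g : Fin xs.length → Fin k)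
    (hg : ∀ j, ∑ i ∈ Finset.univ.filter (fun i => g i = j), xs.get i ≤ r j) :
    Fits xs (Finset.univ.val.map r) := by
  induction xs generalizing r with
  | nil => trivial
  | cons x xs ih =>
    set j₀ : Fin k := g ⟨0, by simp⟩ with hj₀
    have hmem0 : (⟨0, by simp⟩ : Fin (x :: xs).length) ∈
        Finset.univ.filter (fun i => g i = j₀) := by simp [hj₀]
    have hx : x ≤ r j₀ := by
      have := hg j₀
      calc x = (x :: xs).get ⟨0, by simp⟩ := rfl
        _ ≤ _ := Finset.single_le_sum (f := fun i => (x :: xs).get i)
            (fun _ _ => Nat.zero_le _) hmem0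
        _ ≤ _ := this
    refine ⟨r j₀, Multiset.mem_map_of_mem _ (Finset.mem_univ_val _), hx, ?_⟩
    -- new capacities
    let r' : Fin k → ℕ := Function.update r j₀ (r j₀ - x)
    let g' : Fin xs.length → Fin k := fun i => g (Fin.succ i)
    have hg' : ∀ j, ∑ i ∈ Finset.univ.filter (fun i => g' i = j), xs.get i ≤ r' j := by
      intro j
      have hsucc : ∑ i ∈ Finset.univ.filter (fun i => g i = j), (x :: xs).get i
          = (if g ⟨0, by simp⟩ = j then x else 0) +
            ∑ i ∈ Finset.univ.filter (fun i => g' i = j), xs.get i := by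
        rw [Finset.sum_filter, Finset.sum_filter]
        have : (Finset.univ : Finset (Fin (x :: xs).length)).sum
            (fun i => if g i = j then (x :: xs).get i else 0)
            = (if g ⟨0, by simp⟩ = j then x else 0) +
              ∑ i : Fin xs.length, (if g' i = j then xs.get i else 0) := by
          have h := Fin.sum_univ_succ (n := xs.length)
            (fun i : Fin (xs.length + 1) =>
              if g i = j then (x :: xs).get i else 0)
          exact h
        exact this
      have h1 := hg j
      rw [hsucc] at h1
      by_cases hj : j = j₀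
      · subst hj
        simp only [r', Function.update_self]
        have : g ⟨0, by simp⟩ = j₀ := hj₀.symm
        rw [if_pos this] at h1
        omega
      · have hne : g ⟨0, by simp⟩ ≠ j := fun h => hj (h.symm.trans hj₀.symm)
        rw [if_neg hne] at h1
        simp only [r', Function.update_of_ne hj]
        omega
    have key := ih r' g' hg'
    have e : Finset.univ.val.map r' = (r j₀ - x) ::ₘ (Finset.univ.val.map r).erase (r j₀) := by
      classical
      have h1 : (Finset.univ : Finset (Fin k)).val = j₀ ::ₘ (Finset.univ.erase j₀).val := by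
        rw [Finset.erase_val, Multiset.cons_erase (Finset.mem_univ j₀)]
      have h2 : (Finset.univ.erase j₀).val.map r' = (Finset.univ.erase j₀).val.map r := by
        apply Multiset.map_congr rfl
        intro i hi
        have : i ≠ j₀ := (Finset.mem_erase.1 (Finset.mem_def.2 hi)).1
        simp [r', Function.update_of_ne this]
      rw [h1, Multiset.map_cons, Multiset.map_cons, Multiset.erase_cons_head, h2]
      simp [r']
    rw [e] at key
    exact key

/-- Refuting a packing of an integer instance with capacity `L`. -/
theorem not_packable_of_fit (S : List ℕ) (L k m : ℕ) (hL : 0 < L) (hm : ∀ x ∈ S, m ≤ x)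
    (h : fit m S (List.replicate k L) = false) :
    ¬ Packable (S.map (fun n : ℕ => (n : ℚ) / L)) k := by
  rintro ⟨f, hf⟩
  have hlen : (S.map (fun n : ℕ => (n : ℚ) / L)).length = S.length := by simp
  let g : Fin S.length → Fin k := fun i => f (Fin.cast hlen.symm i)
  have hg : ∀ j, ∑ i ∈ Finset.univ.filter (fun i => g i = j), S.get i ≤ (fun _ => L) j := by
    intro j
    have h1 := hf j
    have hL' : (0 : ℚ) < L := by exact_mod_cast hL
    have h2 : ∑ i ∈ Finset.univ.filter (fun i => f i = j), (S.map (fun n : ℕ => (n : ℚ) / L)).get i
        = ((∑ i ∈ Finset.univ.filter (fun i => g i = j), S.get i : ℕ) : ℚ) / L := by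
      rw [Nat.cast_sum, Finset.sum_div]
      refine Finset.sum_bij (fun i _ => Fin.cast hlen i) ?_ ?_ ?_ ?_
      · intro i hi
        simpa [g] using hi
      · intro a _ b _ hab
        simpa [Fin.ext_iff] using hab
      · intro b hb
        refine ⟨Fin.cast hlen.symm b, ?_, ?_⟩
        · simpa [g] using hb
        · simp
      · intro a _
        simp
    rw [h2] at h1
    have h3 : ((∑ i ∈ Finset.univ.filter (fun i => g i = j), S.get i : ℕ) : ℚ) ≤ L := by
      rwa [div_le_one hL'] at h1
    exact_mod_cast h3
  have hfits := fits_of_assign S (fun _ : Fin k => L) g hg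
  have e : (Finset.univ : Finset (Fin k)).val.map (fun _ => L) = (List.replicate k L : Multiset ℕ) := by
    rw [Multiset.map_const', Finset.card_val, Finset.card_univ, Fintype.card_fin,
      Multiset.coe_replicate]
  rw [e] at hfits
  have := fit_of_fits hm hfits
  simp [h] at this

/-- Monotonicity of packability: more bins never hurt. -/
lemma Packable.mono {I : List ℚ} {j k : ℕ} (hjk : j ≤ k) (h : Packable I j) : Packable I k := by
  obtain ⟨f, hf⟩ := h
  refine ⟨fun i => Fin.castLE hjk (f i), ?_⟩
  intro b
  by_cases hb : b.1 < j
  · have := hf ⟨b.1, hb⟩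
    convert this using 2
    ext i
    simp [Fin.ext_iff]
  · have : Finset.univ.filter (fun i => Fin.castLE hjk (f i) = b) = ∅ := by
      ext i
      simp only [Finset.mem_filter, Finset.mem_univ, true_and, Finset.notMem_empty, iff_false]
      intro h'
      apply hb
      have := (f i).2
      rw [← h']
      simpa using this
    rw [this]
    simp

/-- A packing into the instance size many bins exists when all sizes are at most `1`. -/
lemma packable_length {I : List ℚ} (hI : ∀ a ∈ I, a ≤ 1) : Packable I I.length := by
  refine ⟨id, fun j => ?_⟩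
  have : Finset.univ.filter (fun i : Fin I.length => id i = j) = {j} := by
    ext i; simp
  rw [this]
  simpa using hI _ (List.get_mem I j)

/-- Lower bound on `OPT` from a refuted packing. -/
lemma le_OPT_of_not_packable {I : List ℚ} (hI : ∀ a ∈ I, a ≤ 1) {k : ℕ} (h : ¬ Packable I k) :
    k + 1 ≤ OPT I := by
  have hne : {j | Packable I j}.Nonempty := ⟨_, packable_length hI⟩
  have hmem : Packable I (OPT I) := Nat.sInf_mem hne
  by_contra hlt
  exact h (hmem.mono (by omega))

/-- Upper bound on `LP` from a list of weighted configurations. -/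
lemma LP_le_of_list (I : List ℚ) (Z : List (Config I × ℝ)) (hnn : ∀ p ∈ Z, 0 ≤ p.2)
    (hcov : ∀ σ : {σ // σ ∈ I.toFinset}, (I.count σ.1 : ℝ) ≤ (Z.map fun p => (p.1.1 σ : ℝ) * p.2).sum) :
    LP I ≤ (Z.map fun p => p.2).sum := by
  classical
  let z : Config I →₀ ℝ := (Z.map fun p => Finsupp.single p.1 p.2).sum
  have hsum : ∀ a : Config I → ℝ, (z.sum fun c w => a c * w) = (Z.map fun p => a p.1 * p.2).sum := by
    intro a
    have : ∀ Y : List (Config I × ℝ),
        (((Y.map fun p => Finsupp.single p.1 p.2).sum : Config I →₀ ℝ).sum fun c w => a c * w)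
          = (Y.map fun p => a p.1 * p.2).sum := by
      intro Y
      induction Y with
      | nil => simp
      | cons p Y ih =>
        simp only [List.map_cons, List.sum_cons]
        rw [Finsupp.sum_add_index' (by simp) (by intros; ring), ih, Finsupp.sum_single_index (by simp)]
    exact this Z
  have hz0 : ∀ c, 0 ≤ z c := by
    intro c
    have : ∀ Y : List (Config I × ℝ), (∀ p ∈ Y, 0 ≤ p.2) →
        0 ≤ ((Y.map fun p => Finsupp.single p.1 p.2).sum : Config I →₀ ℝ) c := by
      intro Y hY
      induction Y with
      | nil => simp
      | cons p Y ih =>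
        simp only [List.map_cons, List.sum_cons, Finsupp.add_apply]
        have h1 : 0 ≤ (Finsupp.single p.1 p.2 : Config I →₀ ℝ) c := by
          rw [Finsupp.single_apply]
          split_ifs
          · exact hY p (by simp)
          · exact le_rfl
        exact add_nonneg h1 (ih fun q hq => hY q (List.mem_cons_of_mem _ hq))
    exact this Z hnn
  have hbdd : BddBelow (LPValues I) := by
    refine ⟨0, ?_⟩
    rintro v ⟨y, hy, -, rfl⟩
    exact Finsupp.sum_nonneg (fun c _ => hy c)
  have hmem : (Z.map fun p => p.2).sum ∈ LPValues I := by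
    refine ⟨z, hz0, ?_, ?_⟩
    · intro σ
      rw [hsum (fun c => (c.1 σ : ℝ))]
      exact hcov σ
    · have := hsum (fun _ => 1)
      simp only [one_mul] at this
      exact this.symm
  exact csInf_le hbdd hmem

end Vale.Agent.Lib.P302
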