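import Mathlib
import Vale.Agent.Lib.P302.Check

/-!
A checkable certificate for a lower bound on `OPT - LP` of an integer instance.
-/

namespace Vale.Agent.Lib.P302

/-- Multiplicity of `n` in an association list. -/
def cN (A : List (ℕ × ℕ)) (n : ℕ) : ℕ := (A.lookup n).getD 0

/-- Total size of a configuration over the distinct sizes `T`. -/
def cSize (T : List ℕ) (A : List (ℕ × ℕ)) : ℕ := (T.map fun n => n * cN A n).sum

/-- Total coverage of the size `n` by weighted configurations. -/
def cCover (Z : List (List (ℕ × ℕ) × ℕ)) (n : ℕ) : ℕ := (Z.map fun p => cN p.1 n * p.2).sum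

/-- The boolean check of a fractional solution of the configuration LP. -/
def certLP (S : List ℕ) (L D : ℕ) (Z : List (List (ℕ × ℕ) × ℕ)) : Bool :=
  S.all (fun n => decide (0 < n) && decide (n ≤ L)) &&
  (Z.all fun p => decide (cSize S.dedup p.1 ≤ L)) &&
  (S.dedup.all fun n => decide (S.count n * D ≤ cCover Z n))

lemma list_sum_div_aux {α : Type*} {K : Type*} [Field K] (l : List α) (f : α → K) (c : K) :
    (l.map f).sum / c = (l.map fun x => f x / c).sum := by
  induction l with
  | nil => simp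
  | cons a l ih => simp [add_div, ih]

theorem gap_of_cert (S : List ℕ) (L D K : ℕ) (Z : List (List (ℕ × ℕ) × ℕ))
    (hL : 0 < L) (hD : 0 < D)
    (h : certLP S L D Z = true) (hnp : ¬ Packable (S.map (fun n : ℕ => (n : ℚ) / L)) K) :
    (∀ a ∈ S.map (fun n : ℕ => (n : ℚ) / L), 0 < a ∧ a ≤ 1) ∧
    ((K : ℝ) + 1 - ((Z.map fun p => p.2).sum : ℕ) / D ≤
      (OPT (S.map (fun n : ℕ => (n : ℚ) / L)) : ℝ) - LP (S.map (fun n : ℕ => (n : ℚ) / L))) := by
  classical
  simp only [certLP, Bool.and_eq_true, List.all_eq_true, decide_eq_true_eq] at h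
  obtain ⟨⟨h1, h2⟩, h3⟩ := h
  set I := S.map (fun n : ℕ => (n : ℚ) / L) with hI
  have hLq : (0 : ℚ) < L := by exact_mod_cast hL
  have hLr : (0 : ℝ) < L := by exact_mod_cast hL
  have hDr : (0 : ℝ) < D := by exact_mod_cast hD
  have hbd : ∀ a ∈ I, 0 < a ∧ a ≤ 1 := by
    intro a ha
    obtain ⟨n, hn, rfl⟩ := List.mem_map.1 ha
    obtain ⟨h5, h6⟩ := h1 n hn
    constructor
    · have : (0 : ℚ) < n := by exact_mod_cast h5
      positivity
    · rw [div_le_one hLq]
      exact_mod_cast h6
  refine ⟨hbd, ?_⟩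
  have hopt : K + 1 ≤ OPT I := by
    exact le_OPT_of_not_packable (fun a ha => (hbd a ha).2) hnp
  -- the map is injective
  have hinj : Function.Injective (fun n : ℕ => (n : ℚ) / L) := by
    intro a b hab
    have hab' : (a : ℚ) / L = (b : ℚ) / L := hab
    have : (a : ℚ) = b := by
      field_simp at hab'
      exact hab'
    exact_mod_cast this
  have hfloor : ∀ n : ℕ, ⌊((n : ℚ) / L) * L⌋₊ = n := by
    intro n
    rw [div_mul_cancel₀ _ hLq.ne', Nat.floor_natCast]
  have hfin : I.toFinset = S.toFinset.image (fun n : ℕ => (n : ℚ) / L) := by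
    ext q
    simp [hI]
  -- sums over the subtype
  have hsumq : ∀ f : ℕ → ℚ, ∑ σ : {σ // σ ∈ I.toFinset}, f ⌊σ.1 * L⌋₊ * σ.1
      = (S.dedup.map fun n => f n * ((n : ℚ) / L)).sum := by
    intro f
    rw [Finset.sum_coe_sort I.toFinset (fun σ => f ⌊σ * L⌋₊ * σ), hfin,
      Finset.sum_image (fun a _ b _ hab => hinj hab)]
    simp only [hfloor]
    have e0 : S.toFinset = S.dedup.toFinset := by
      ext q
      simp
    rw [e0, List.sum_toFinset _ (List.nodup_dedup S)]
  -- the configurations
  let mk : (p : List (ℕ × ℕ) × ℕ) → p ∈ Z → Config I × ℝ := fun p hp =>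
    (⟨fun σ => cN p.1 ⌊σ.1 * L⌋₊, by
      have h5 := h2 p hp
      have := hsumq (fun n => (cN p.1 n : ℚ))
      have e : ∑ σ : {σ // σ ∈ I.toFinset}, σ.1 * ((cN p.1 ⌊σ.1 * L⌋₊ : ℕ) : ℚ)
          = ∑ σ : {σ // σ ∈ I.toFinset}, ((cN p.1 ⌊σ.1 * L⌋₊ : ℕ) : ℚ) * σ.1 :=
        Finset.sum_congr rfl (fun _ _ => mul_comm _ _)
      rw [e, this]
      have e2 : (S.dedup.map fun n => (cN p.1 n : ℚ) * ((n : ℚ) / L)).sum
          = ((cSize S.dedup p.1 : ℕ) : ℚ) / L := by
        unfold cSize
        rw [Nat.cast_list_sum, List.map_map, list_sum_div_aux]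
        congr 1
        apply List.map_congr_left
        intro n _
        simp only [Function.comp_apply]
        push_cast
        ring
      rw [e2, div_le_one hLq]
      exact_mod_cast h5⟩, ((p.2 : ℝ) / D))
  let Y : List (Config I × ℝ) := Z.attach.map fun q => mk q.1 q.2
  have hY1 : ∀ g : List (ℕ × ℕ) × ℕ → ℝ, ∀ a : Config I × ℝ → ℝ,
      (∀ q : {x // x ∈ Z}, a (mk q.1 q.2) = g q.1) →
        (Y.map a).sum = (Z.map g).sum := by
    intro g a hag
    have : Y.map a = Z.map g := by
      simp only [Y, List.map_map]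
      conv_rhs => rw [← List.attach_map_subtype_val Z, List.map_map]
      apply List.map_congr_left
      intro q _
      exact hag q
    rw [this]
  have hlp : LP I ≤ (Y.map fun p => p.2).sum := by
    apply LP_le_of_list
    · intro p hp
      obtain ⟨q, _, rfl⟩ := List.mem_map.1 hp
      show 0 ≤ (q.1.2 : ℝ) / D
      positivity
    · rintro ⟨σ, hσ⟩
      -- σ = n / L for some n ∈ S
      have hσ' : σ ∈ S.toFinset.image (fun n : ℕ => (n : ℚ) / L) := hfin ▸ hσ
      obtain ⟨n, hn, rfl⟩ := Finset.mem_image.1 hσ'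
      have hn' : n ∈ S := List.mem_toFinset.1 hn
      have h6 := h3 n (List.mem_dedup.2 hn')
      have hcount : I.count ((n : ℚ) / L) = S.count n := by
        rw [hI]
        exact List.count_map_of_injective _ _ hinj _
      have hcov : (Y.map fun p => (p.1.1 ⟨(n : ℚ) / L, hσ⟩ : ℝ) * p.2).sum
          = (Z.map fun p => (cN p.1 n : ℝ) * ((p.2 : ℝ) / D)).sum := by
        apply hY1
        intro q
        simp only [mk]
        rw [hfloor]
      rw [hcount, hcov]
      have e3 : (Z.map fun p => (cN p.1 n : ℝ) * ((p.2 : ℝ) / D)).sum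
          = ((cCover Z n : ℕ) : ℝ) / D := by
        unfold cCover
        rw [Nat.cast_list_sum, List.map_map, list_sum_div_aux]
        congr 1
        apply List.map_congr_left
        intro p _
        simp only [Function.comp_apply]
        push_cast
        ring
      rw [e3, le_div_iff₀ hDr]
      exact_mod_cast h6
  have hval : (Y.map fun p => p.2).sum = ((Z.map fun p => p.2).sum : ℕ) / D := by
    have := hY1 (fun p => (p.2 : ℝ) / D) (fun p => p.2) (fun q => rfl)
    rw [this, Nat.cast_list_sum, List.map_map, list_sum_div_aux]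
    rfl
  have hopt' : ((K : ℝ) + 1) ≤ (OPT I : ℝ) := by exact_mod_cast hopt
  rw [hval] at hlp
  linarith

end Vale.Agent.Lib.P302
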