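import Mathlib
import Vale.Agent.Lib.P302.Check

/-!
A closure certificate refuting packings: a finite search tree of states of the packing search in
which equal states are merged.  A state is a number `k` coding an index `i` into the list of items
and a list of residual capacities.
-/

namespace Vale.Agent.Lib.P302

/-- Binary search trees of natural numbers. -/
inductive KTree where
  | leaf : KTree
  | node : KTree → ℕ → KTree → KTree

namespace KTree

/-- Membership in a search tree. -/
def mem : KTree → ℕ → Bool
  | leaf, _ => false
  | node l k r, x =>
    bif Nat.blt x k then mem l x else bif Nat.blt k x then mem r x else true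

/-- All keys of the tree satisfy `p`. -/
def all (p : ℕ → Bool) : KTree → Bool
  | leaf => true
  | node l k r => p k && (all p l && all p r)

theorem all_of_mem {p : ℕ → Bool} {t : KTree} {x : ℕ} (h : t.all p = true) (hx : t.mem x = true) :
    p x = true := by
  induction t with
  | leaf => simp [mem] at hx
  | node l k r ihl ihr =>
    simp only [all, Bool.and_eq_true] at h
    obtain ⟨h1, h2, h3⟩ := h
    simp only [mem] at hx
    cases hb : Nat.blt x k with
    | true =>
      rw [hb] at hx
      exact ihl h2 (by simpa using hx)
    | false =>
      rw [hb] at hx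
      cases hb2 : Nat.blt k x with
      | true =>
        rw [hb2] at hx
        exact ihr h3 (by simpa using hx)
      | false =>
        have e1 : ¬ x < k := by
          intro hlt
          have : Nat.blt x k = true := by simpa [Nat.blt_eq] using hlt
          rw [hb] at this
          exact Bool.noConfusion this
        have e2 : ¬ k < x := by
          intro hlt
          have : Nat.blt k x = true := by simpa [Nat.blt_eq] using hlt
          rw [hb2] at this
          exact Bool.noConfusion this
        have : x = k := by omega
        rw [this]
        exact h1

end KTree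

/-- Digits of `k` in base `B`, at most `f` many, stopping at `0`. -/
def digits (B : ℕ) : ℕ → ℕ → List ℕ
  | 0, _ => []
  | f + 1, k => bif Nat.beq k 0 then [] else (k % B) :: digits B f (k / B)

/-- The number with the given digits in base `B`. -/
def encBins (B : ℕ) : List ℕ → ℕ
  | [] => 0
  | a :: l => a + B * encBins B l

/-- Sorted insertion. -/
def insS (v : ℕ) : List ℕ → List ℕ
  | [] => [v]
  | a :: l => bif Nat.ble v a then v :: a :: l else a :: insS v l

/-- Removing one occurrence. -/
def eraseS (v : ℕ) : List ℕ → List ℕ
  | [] => []
  | a :: l => bif Nat.beq a v then l else a :: eraseS v l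

/-- Removing adjacent repetitions (and all entries equal to the start value). -/
def dedupAux (p : ℕ) : List ℕ → List ℕ
  | [] => []
  | a :: l => bif Nat.beq a p then dedupAux p l else a :: dedupAux a l

/-- Sum of a list. -/
def sumN : List ℕ → ℕ
  | [] => 0
  | a :: l => a + sumN l

/-- Equality test of lists of numbers. -/
def listEq : List ℕ → List ℕ → Bool
  | [], [] => true
  | a :: l, b :: r => Nat.beq a b && listEq l r
  | _, _ => false

/-- The residual capacities after placing an item of size `x` into a bin of capacity `v`;
a capacity below the least item size `m` is dropped. -/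
def childB (m x v : ℕ) (bins : List ℕ) : List ℕ :=
  bif Nat.ble m (v - x) then insS (v - x) (eraseS v bins) else eraseS v bins

/-- The check of one state of the certificate. -/
def stepOK (S : List ℕ) (m B f : ℕ) (T : KTree) (k : ℕ) : Bool :=
  match S.drop (k % B) with
  | [] => false
  | x :: xs =>
    (dedupAux 0 (digits B f (k / B))).all fun v =>
      bif Nat.blt v x then true else
        bif Nat.blt (sumN (childB m x v (digits B f (k / B)))) (sumN xs) then true else
          T.mem ((k % B + 1) + B * encBins B (childB m x v (digits B f (k / B)))) &&
            (Nat.beq (((k % B + 1) + B * encBins B (childB m x v (digits B f (k / B)))) % B)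
                (k % B + 1) &&
              listEq (digits B f (((k % B + 1) +
                B * encBins B (childB m x v (digits B f (k / B)))) / B))
                (childB m x v (digits B f (k / B))))

/-- The certificate check: the start state is in the tree and all states check. -/
def memoOK (S : List ℕ) (L K m B f : ℕ) (T : KTree) : Bool :=
  Nat.blt 0 m && S.all (fun x => Nat.ble m x) &&
  T.mem (B * encBins B (List.replicate K L)) &&
  Nat.beq ((B * encBins B (List.replicate K L)) % B) 0 &&
  listEq (digits B f ((B * encBins B (List.replicate K L)) / B)) (List.replicate K L) &&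
  T.all (stepOK S m B f T)

lemma sumN_eq (l : List ℕ) : sumN l = l.sum := by
  induction l with
  | nil => rfl
  | cons a l ih => simp [sumN, ih]

lemma listEq_eq {l r : List ℕ} (h : listEq l r = true) : l = r := by
  induction l generalizing r with
  | nil =>
    cases r with
    | nil => rfl
    | cons b r => simp [listEq] at h
  | cons a l ih =>
    cases r with
    | nil => simp [listEq] at h
    | cons b r =>
      simp only [listEq, Bool.and_eq_true] at h
      obtain ⟨h1, h2⟩ := h
      rw [Nat.eq_of_beq_eq_true h1, ih h2]

lemma eraseS_coe (v : ℕ) (l : List ℕ) :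
    ((eraseS v l : List ℕ) : Multiset ℕ) = (l : Multiset ℕ).erase v := by
  induction l with
  | nil => simp [eraseS]
  | cons a l ih =>
    cases h : Nat.beq a v with
    | true =>
      have e := Nat.eq_of_beq_eq_true h
      subst e
      simp [eraseS, h]
    | false =>
      have e : a ≠ v := Nat.ne_of_beq_eq_false h
      simp only [eraseS, h, cond_false]
      rw [← Multiset.cons_coe, ih, ← Multiset.cons_coe]
      rw [Multiset.erase_cons_tail _ e]

lemma insS_coe (v : ℕ) (l : List ℕ) :
    ((insS v l : List ℕ) : Multiset ℕ) = v ::ₘ (l : Multiset ℕ) := by
  induction l with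
  | nil => simp [insS]
  | cons a l ih =>
    cases h : Nat.ble v a with
    | true => simp [insS, h]
    | false =>
      simp only [insS, h, cond_false]
      rw [← Multiset.cons_coe, ih, ← Multiset.cons_coe, Multiset.cons_swap]

lemma mem_dedupAux {p v : ℕ} {l : List ℕ} (h : v ∈ l) : v = p ∨ v ∈ dedupAux p l := by
  induction l generalizing p with
  | nil => simp at h
  | cons a l ih =>
    simp only [List.mem_cons] at h
    cases hb : Nat.beq a p with
    | true =>
      have e := Nat.eq_of_beq_eq_true hb
      simp only [dedupAux, hb, cond_true]
      rcases h with h | h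
      · left; rw [h, e]
      · exact ih h
    | false =>
      simp only [dedupAux, hb, cond_false, List.mem_cons]
      rcases h with h | h
      · right; left; exact h
      · rcases ih (p := a) h with h' | h'
        · right; left; exact h'
        · right; right; exact h'

lemma Fits.add_left {xs : List ℕ} {A : Multiset ℕ} (B : Multiset ℕ) (h : Fits xs A) :
    Fits xs (B + A) := by
  induction B using Multiset.induction_on with
  | empty => simpa using h
  | cons a B ih =>
    rw [Multiset.cons_add]
    exact ih.cons a

lemma Fits.of_filter {m : ℕ} {xs : List ℕ} (hm : ∀ x ∈ xs, m ≤ x) {A : Multiset ℕ}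
    (h : Fits xs (A.filter (fun u => m ≤ u))) : Fits xs A := by
  have := Fits.add_left (A.filter (fun u => ¬ m ≤ u)) h
  have e : A.filter (fun u => ¬ m ≤ u) + A.filter (fun u => m ≤ u) = A := by
    rw [add_comm]
    exact Multiset.filter_add_not _ A
  rwa [e] at this

lemma Fits.childB {m x v : ℕ} {xs bins : List ℕ} (hm : ∀ y ∈ xs, m ≤ y)
    (h : Fits xs ((v - x) ::ₘ (bins : Multiset ℕ).erase v)) :
    Fits xs ((childB m x v bins : List ℕ) : Multiset ℕ) := by
  unfold Vale.Agent.Lib.P302.childB
  cases hb : Nat.ble m (v - x) with
  | true =>
    simp only [cond_true]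
    rw [insS_coe, eraseS_coe]
    exact h
  | false =>
    simp only [cond_false]
    rw [eraseS_coe]
    have hlt : ¬ m ≤ v - x := by
      intro hle
      have : Nat.ble m (v - x) = true := by simpa [Nat.ble_eq] using hle
      rw [hb] at this
      exact Bool.noConfusion this
    have h2 := Fits.filter hm h
    rw [Multiset.filter_cons_of_neg _ hlt] at h2
    exact Fits.of_filter hm h2

/-- Soundness of the state check. -/
theorem not_fits_of_closure {S : List ℕ} {m B f : ℕ} {T : KTree} (hm0 : 0 < m)
    (hm : ∀ x ∈ S, m ≤ x) (h : T.all (stepOK S m B f T) = true) :
    ∀ n k, T.mem k = true → (S.drop (k % B)).length ≤ n →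
      ¬ Fits (S.drop (k % B)) ((digits B f (k / B) : List ℕ) : Multiset ℕ) := by
  intro n
  induction n with
  | zero =>
    intro k hk hlen
    have h1 := KTree.all_of_mem h hk
    have h0 : S.drop (k % B) = [] := List.length_eq_zero_iff.1 (by omega)
    simp [stepOK, h0] at h1
  | succ n ih =>
    intro k hk hlen hfits
    have h1 := KTree.all_of_mem h hk
    cases hd : S.drop (k % B) with
    | nil => simp [stepOK, hd] at h1
    | cons x xs =>
      simp only [stepOK, hd] at h1
      rw [hd] at hfits
      have hxsm : ∀ y ∈ xs, m ≤ y := by
        intro y hy
        apply hm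
        have : y ∈ S.drop (k % B) := by rw [hd]; exact List.mem_cons_of_mem _ hy
        exact List.mem_of_mem_drop this
      have hxm : m ≤ x := by
        apply hm
        have : x ∈ S.drop (k % B) := by rw [hd]; exact List.mem_cons_self
        exact List.mem_of_mem_drop this
      obtain ⟨v, hv, hxv, hrest⟩ := hfits
      have hvl : v ∈ digits B f (k / B) := by simpa using hv
      have hvpos : v ≠ 0 := by omega
      have hv2 : v ∈ dedupAux 0 (digits B f (k / B)) := by
        rcases mem_dedupAux (p := 0) hvl with h0 | h0
        · exact absurd h0 hvpos
        · exact h0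
      have h2 := List.all_eq_true.1 h1 v hv2
      have hnb : Nat.blt v x = false := by
        cases hb : Nat.blt v x with
        | false => rfl
        | true =>
          have : v < x := by simpa [Nat.blt_eq] using hb
          omega
      rw [hnb] at h2
      simp only [cond_false] at h2
      have hc := Fits.childB (m := m) hxsm hrest
      have hsum : (childB m x v (digits B f (k / B))).sum ≥ xs.sum := by
        have := hc.sum_le
        simpa using this
      have hnb2 : Nat.blt (sumN (childB m x v (digits B f (k / B)))) (sumN xs) = false := by
        cases hb : Nat.blt (sumN (childB m x v (digits B f (k / B)))) (sumN xs) with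
        | false => rfl
        | true =>
          have : sumN (childB m x v (digits B f (k / B))) < sumN xs := by
            simpa [Nat.blt_eq] using hb
          rw [sumN_eq, sumN_eq] at this
          omega
      rw [hnb2] at h2
      simp only [cond_false, Bool.and_eq_true] at h2
      obtain ⟨h3, h4, h5⟩ := h2
      have e1 := Nat.eq_of_beq_eq_true h4
      have e2 := listEq_eq h5
      set k' := (k % B + 1) + B * encBins B (childB m x v (digits B f (k / B))) with hk'
      have hdrop : S.drop (k' % B) = xs := by
        rw [e1, ← List.drop_drop, hd]
        simp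
      have hlen' : (S.drop (k' % B)).length ≤ n := by
        rw [hdrop]
        rw [hd] at hlen
        simpa using hlen
      have := ih k' h3 hlen'
      apply this
      rw [hdrop, e2]
      exact hc

/-- A packing gives a run of the relational search. -/
theorem fits_of_packable (S : List ℕ) (L k : ℕ) (hL : 0 < L)
    (h : Packable (S.map (fun n : ℕ => (n : ℚ) / L)) k) :
    Fits S (List.replicate k L : Multiset ℕ) := by
  obtain ⟨f, hf⟩ := h
  have hlen : (S.map (fun n : ℕ => (n : ℚ) / L)).length = S.length := by simp
  let g : Fin S.length → Fin k := fun i => f (Fin.cast hlen.symm i)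
  have hg : ∀ j, ∑ i ∈ Finset.univ.filter (fun i => g i = j), S.get i ≤ (fun _ => L) j := by
    intro j
    have h1 := hf j
    have hL' : (0 : ℚ) < L := by exact_mod_cast hL
    have h2 : ∑ i ∈ Finset.univ.filter (fun i => f i = j), (S.map (fun n : ℕ => (n : ℚ) / L)).get i
        = ((∑ i ∈ Finset.univ.filter (fun i => g i = j), S.get i : ℕ) : ℚ) / L := by
      rw [Nat.cast_sum, Finset.sum_div]
      refine Finset.sum_bij (fun i _ => Fin.cast hlen i) ?_ ?_ ?_ ?_
      · intro i hi
        simpa [g] using hi
      · intro a _ b _ hab
        simpa [Fin.ext_iff] using hab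
      · intro b hb
        refine ⟨Fin.cast hlen.symm b, ?_, ?_⟩
        · simpa [g] using hb
        · simp
      · intro a _
        simp
    rw [h2] at h1
    have h3 : ((∑ i ∈ Finset.univ.filter (fun i => g i = j), S.get i : ℕ) : ℚ) ≤ L := by
      rwa [div_le_one hL'] at h1
    exact_mod_cast h3
  have hfits := fits_of_assign S (fun _ : Fin k => L) g hg
  have e : (Finset.univ : Finset (Fin k)).val.map (fun _ => L) = (List.replicate k L : Multiset ℕ) := by
    rw [Multiset.map_const', Finset.card_val, Finset.card_univ, Fintype.card_fin,
      Multiset.coe_replicate]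
  rw [e] at hfits
  exact hfits

/-- Refuting a packing by a closure certificate. -/
theorem not_packable_of_memo (S : List ℕ) (L K m B f : ℕ) (T : KTree) (hL : 0 < L)
    (h : memoOK S L K m B f T = true) :
    ¬ Packable (S.map (fun n : ℕ => (n : ℚ) / L)) K := by
  intro hp
  simp only [memoOK, Bool.and_eq_true, List.all_eq_true] at h
  obtain ⟨⟨⟨⟨⟨h0, h1⟩, h2⟩, h3⟩, h4⟩, h5⟩ := h
  have hm0 : 0 < m := by simpa [Nat.blt_eq] using h0
  have hm : ∀ x ∈ S, m ≤ x := fun x hx => by simpa [Nat.ble_eq] using h1 x hx
  have hfits := fits_of_packable S L K hL hp
  have e1 := Nat.eq_of_beq_eq_true h3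
  have e2 := listEq_eq h4
  have := not_fits_of_closure hm0 hm h5 _ _ h2 le_rfl
  apply this
  rw [e1, e2]
  simpa using hfits

end Vale.Agent.Lib.P302
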