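import Mathlib
import Vale.Agent.Lib.P302.Memo

/-!
A second closure certificate refuting packings.  Items may come in any order, a capacity below all
items still to be placed is dropped, and the check also prunes states by the sum of the quotients
of all sizes by a fixed number `t`.
-/

namespace Vale.Agent.Lib.P302

/-- Sum of the quotients by `t`. -/
def sumDiv (t : ℕ) : List ℕ → ℕ
  | [] => 0
  | a :: l => a / t + sumDiv t l

/-- Entry of a list at a position, with default `0`. -/
def nth : List ℕ → ℕ → ℕ
  | [], _ => 0
  | a :: _, 0 => a
  | _ :: l, i + 1 => nth l i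

/-- Removing the first entries below `m`. -/
def dropLow (m : ℕ) : List ℕ → List ℕ
  | [] => []
  | a :: l => bif Nat.blt a m then dropLow m l else a :: l

/-- The residual capacities after placing an item of size `x` into a bin of capacity `v`. -/
def childC (m x v : ℕ) (bins : List ℕ) : List ℕ :=
  dropLow m (insS (v - x) (eraseS v bins))

/-- The check of one child of a state. -/
def childOK (t B f : ℕ) (T : KTree) (i : ℕ) (xs c : List ℕ) : Bool :=
  bif Nat.blt (sumN c) (sumN xs) then true else
    bif Nat.blt (sumDiv t c) (sumDiv t xs) then true else
      T.mem (i + B * encBins B c) &&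
        (Nat.beq ((i + B * encBins B c) % B) i &&
          listEq (digits B f ((i + B * encBins B c) / B)) c)

/-- The check of one state of the certificate. -/
def stepOK2 (S MS : List ℕ) (t B f : ℕ) (T : KTree) (k : ℕ) : Bool :=
  match S.drop (k % B) with
  | [] => false
  | x :: xs =>
    (dedupAux 0 (digits B f (k / B))).all fun v =>
      bif Nat.blt v x then true else
        childOK t B f T (k % B + 1) xs (childC (nth MS (k % B + 1)) x v (digits B f (k / B)))

/-- `MS` lists lower bounds of the items still to be placed. -/
def msOK : List ℕ → List ℕ → Bool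
  | [], _ => true
  | _ :: _, [] => true
  | x :: xs, m :: ms => (x :: xs).all (fun y => Nat.ble m y) && msOK xs ms

/-- The first part of the certificate check: the start state is in the tree. -/
def memoPre (S MS : List ℕ) (L K B f : ℕ) (T : KTree) : Bool :=
  S.all (fun x => Nat.blt 0 x) && msOK S MS &&
  T.mem (B * encBins B (List.replicate K L)) &&
  Nat.beq ((B * encBins B (List.replicate K L)) % B) 0 &&
  listEq (digits B f ((B * encBins B (List.replicate K L)) / B)) (List.replicate K L)

lemma msOK_spec {S MS : List ℕ} (h : msOK S MS = true) (i : ℕ) :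
    ∀ y ∈ S.drop i, nth MS i ≤ y := by
  induction S generalizing MS i with
  | nil => simp
  | cons x xs ih =>
    cases MS with
    | nil => intro y _; simp [nth]
    | cons m ms =>
      simp only [msOK, Bool.and_eq_true, List.all_eq_true] at h
      obtain ⟨h1, h2⟩ := h
      cases i with
      | zero =>
        intro y hy
        have := h1 y (by simpa using hy)
        simpa [nth, Nat.ble_eq] using this
      | succ i =>
        intro y hy
        exact ih h2 i y (by simpa using hy)

lemma sumDiv_eq (t : ℕ) (l : List ℕ) : sumDiv t l = ((l : Multiset ℕ).map (· / t)).sum := by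
  induction l with
  | nil => rfl
  | cons a l ih =>
    simp [sumDiv, ih]

lemma Fits.sumDiv_le (t : ℕ) {xs : List ℕ} {bins : Multiset ℕ} (h : Fits xs bins) :
    sumDiv t xs ≤ (bins.map (· / t)).sum := by
  induction xs generalizing bins with
  | nil => simp [sumDiv]
  | cons x xs ih =>
    obtain ⟨v, hv, hxv, hrest⟩ := h
    have h1 := ih hrest
    have h2 : x / t + (v - x) / t ≤ v / t := by
      have := Nat.div_add_div_le_add_div (x := x) (y := v - x) (z := t)
      rwa [Nat.add_sub_cancel' hxv] at this
    have h3 : (bins.map (· / t)).sum = v / t + ((bins.erase v).map (· / t)).sum := by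
      conv_lhs => rw [← Multiset.cons_erase hv]
      simp
    have h4 : (((v - x) ::ₘ bins.erase v).map (· / t)).sum
        = (v - x) / t + ((bins.erase v).map (· / t)).sum := by
      simp
    rw [h4] at h1
    simp only [sumDiv]
    omega

lemma Fits.dropLow {m : ℕ} {xs : List ℕ} (hm : ∀ x ∈ xs, m ≤ x) {l : List ℕ}
    (h : Fits xs (l : Multiset ℕ)) : Fits xs ((dropLow m l : List ℕ) : Multiset ℕ) := by
  induction l with
  | nil => simpa [Vale.Agent.Lib.P302.dropLow] using h
  | cons a l ih =>
    simp only [Vale.Agent.Lib.P302.dropLow]
    cases hb : Nat.blt a m with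
    | false => simpa using h
    | true =>
      have hlt : a < m := by simpa [Nat.blt_eq] using hb
      simp only [cond_true]
      apply ih
      have h2 := Fits.filter hm h
      rw [← Multiset.cons_coe, Multiset.filter_cons_of_neg _ (by omega)] at h2
      exact Fits.of_filter hm h2

lemma Fits.childC {m x v : ℕ} {xs bins : List ℕ} (hm : ∀ y ∈ xs, m ≤ y)
    (h : Fits xs ((v - x) ::ₘ (bins : Multiset ℕ).erase v)) :
    Fits xs ((Vale.Agent.Lib.P302.childC m x v bins : List ℕ) : Multiset ℕ) := by
  unfold Vale.Agent.Lib.P302.childC
  apply Fits.dropLow hm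
  rw [insS_coe, eraseS_coe]
  exact h

/-- Soundness of the state check. -/
theorem not_fits_of_closure2 {S MS : List ℕ} {t B f : ℕ} {T : KTree}
    (hpos : ∀ x ∈ S, 0 < x) (hms : msOK S MS = true)
    (h : T.all (stepOK2 S MS t B f T) = true) :
    ∀ n k, T.mem k = true → (S.drop (k % B)).length ≤ n →
      ¬ Fits (S.drop (k % B)) ((digits B f (k / B) : List ℕ) : Multiset ℕ) := by
  intro n
  induction n with
  | zero =>
    intro k hk hlen
    have h1 := KTree.all_of_mem h hk
    have h0 : S.drop (k % B) = [] := List.length_eq_zero_iff.1 (by omega)
    simp [stepOK2, h0] at h1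
  | succ n ih =>
    intro k hk hlen hfits
    have h1 := KTree.all_of_mem h hk
    cases hd : S.drop (k % B) with
    | nil => simp [stepOK2, hd] at h1
    | cons x xs =>
      simp only [stepOK2, hd] at h1
      rw [hd] at hfits
      have hdrop1 : S.drop (k % B + 1) = xs := by
        rw [← List.drop_drop, hd]
        simp
      have hxsm : ∀ y ∈ xs, nth MS (k % B + 1) ≤ y := by
        intro y hy
        apply msOK_spec hms
        rw [hdrop1]
        exact hy
      have hx0 : 0 < x := by
        apply hpos
        have : x ∈ S.drop (k % B) := by rw [hd]; exact List.mem_cons_self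
        exact List.mem_of_mem_drop this
      obtain ⟨v, hv, hxv, hrest⟩ := hfits
      have hvl : v ∈ digits B f (k / B) := by simpa using hv
      have hvpos : v ≠ 0 := by omega
      have hv2 : v ∈ dedupAux 0 (digits B f (k / B)) := by
        rcases mem_dedupAux (p := 0) hvl with h0 | h0
        · exact absurd h0 hvpos
        · exact h0
      have h2 := List.all_eq_true.1 h1 v hv2
      have hnb : Nat.blt v x = false := by
        cases hb : Nat.blt v x with
        | false => rfl
        | true =>
          have : v < x := by simpa [Nat.blt_eq] using hb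
          omega
      rw [hnb] at h2
      simp only [cond_false] at h2
      have hc := Fits.childC (m := nth MS (k % B + 1)) hxsm hrest
      set c := Vale.Agent.Lib.P302.childC (nth MS (k % B + 1)) x v (digits B f (k / B)) with hcdef
      simp only [childOK] at h2
      have hnb2 : Nat.blt (sumN c) (sumN xs) = false := by
        cases hb : Nat.blt (sumN c) (sumN xs) with
        | false => rfl
        | true =>
          have h7 : sumN c < sumN xs := by simpa [Nat.blt_eq] using hb
          rw [sumN_eq, sumN_eq] at h7
          have := hc.sum_le
          simp only [Multiset.sum_coe] at this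
          omega
      rw [hnb2] at h2
      simp only [cond_false] at h2
      have hnb3 : Nat.blt (sumDiv t c) (sumDiv t xs) = false := by
        cases hb : Nat.blt (sumDiv t c) (sumDiv t xs) with
        | false => rfl
        | true =>
          have h7 : sumDiv t c < sumDiv t xs := by simpa [Nat.blt_eq] using hb
          have := hc.sumDiv_le t
          rw [← sumDiv_eq] at this
          omega
      rw [hnb3] at h2
      simp only [cond_false, Bool.and_eq_true] at h2
      obtain ⟨h3, h4, h5⟩ := h2
      have e1 := Nat.eq_of_beq_eq_true h4
      have e2 := listEq_eq h5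
      set k' := (k % B + 1) + B * encBins B c with hk'
      have hdrop : S.drop (k' % B) = xs := by
        rw [e1, hdrop1]
      have hlen' : (S.drop (k' % B)).length ≤ n := by
        rw [hdrop]
        rw [hd] at hlen
        simpa using hlen
      have := ih k' h3 hlen'
      apply this
      rw [hdrop, e2]
      exact hc

/-- Building the check of all states of a tree from those of its parts. -/
theorem KTree.all_node {p : ℕ → Bool} {l r : KTree} {k : ℕ} (hk : p k = true)
    (hl : l.all p = true) (hr : r.all p = true) : (KTree.node l k r).all p = true := by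
  simp [KTree.all, hk, hl, hr]

/-- Refuting a packing by a closure certificate. -/
theorem not_packable_of_memo2 (S MS : List ℕ) (L K t B f : ℕ) (T : KTree) (hL : 0 < L)
    (h : memoPre S MS L K B f T = true) (h5 : T.all (stepOK2 S MS t B f T) = true) :
    ¬ Packable (S.map (fun n : ℕ => (n : ℚ) / L)) K := by
  intro hp
  simp only [memoPre, Bool.and_eq_true, List.all_eq_true] at h
  obtain ⟨⟨⟨⟨h0, h1⟩, h2⟩, h3⟩, h4⟩ := h
  have hpos : ∀ x ∈ S, 0 < x := fun x hx => by simpa [Nat.blt_eq] using h0 x hx
  have hfits := fits_of_packable S L K hL hp
  have e1 := Nat.eq_of_beq_eq_true h3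
  have e2 := listEq_eq h4
  have := not_fits_of_closure2 hpos h1 h5 _ _ h2 le_rfl
  apply this
  rw [e1, e2]
  simpa using hfits

end Vale.Agent.Lib.P302
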