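import Mathlib
import Vale.Agent.Lib.P302.Memo2

/-!
A third closure certificate refuting packings.  When only items of about the same size are left,
with sizes between `u` and `w`, every capacity is replaced by a canonical capacity holding at least
as many of these items.
-/

namespace Vale.Agent.Lib.P302

lemma erase_cons_of_mem {v : ℕ} {A : Multiset ℕ} (b : ℕ) (hv : v ∈ A) :
    (b ::ₘ A).erase v = b ::ₘ A.erase v := by
  by_cases h : b = v
  · subst h
    rw [Multiset.erase_cons_head, Multiset.cons_erase hv]
  · rw [Multiset.erase_cons_tail_of_mem hv]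

lemma Fits.drop_low {u : ℕ} {xs : List ℕ} (hu : ∀ x ∈ xs, u ≤ x) {a : ℕ} {A : Multiset ℕ}
    (ha : a < u) (h : Fits xs (a ::ₘ A)) : Fits xs A := by
  have h2 := Fits.filter hu h
  rw [Multiset.filter_cons_of_neg _ (by omega)] at h2
  exact Fits.of_filter hu h2

/-- A larger capacity is never worse. -/
lemma Fits.mono_head {xs : List ℕ} {a c : ℕ} {A : Multiset ℕ} (hac : a ≤ c)
    (h : Fits xs (a ::ₘ A)) : Fits xs (c ::ₘ A) := by
  induction xs generalizing a c A with
  | nil => trivial
  | cons x xs ih =>
    obtain ⟨v, hv, hxv, hrest⟩ := h
    rcases Multiset.mem_cons.1 hv with rfl | hvA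
    · refine ⟨c, Multiset.mem_cons_self _ _, by omega, ?_⟩
      rw [Multiset.erase_cons_head] at hrest ⊢
      exact ih (by omega) hrest
    · refine ⟨v, Multiset.mem_cons_of_mem hvA, hxv, ?_⟩
      rw [erase_cons_of_mem _ hvA] at hrest ⊢
      rw [Multiset.cons_swap] at hrest ⊢
      exact ih hac hrest

/-- A capacity below `2 u` holds at most one item. -/
lemma Fits.one_slot {u w : ℕ} {xs : List ℕ} (hu : ∀ x ∈ xs, u ≤ x) (hw : ∀ x ∈ xs, x ≤ w)
    {a : ℕ} {A : Multiset ℕ} (ha : a < 2 * u) (h : Fits xs (a ::ₘ A)) : Fits xs (w ::ₘ A) := by
  induction xs generalizing a A with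
  | nil => trivial
  | cons x xs ih =>
    have hux : u ≤ x := hu x (by simp)
    have hxw : x ≤ w := hw x (by simp)
    have hu' : ∀ y ∈ xs, u ≤ y := fun y hy => hu y (List.mem_cons_of_mem _ hy)
    have hw' : ∀ y ∈ xs, y ≤ w := fun y hy => hw y (List.mem_cons_of_mem _ hy)
    obtain ⟨v, hv, hxv, hrest⟩ := h
    rcases Multiset.mem_cons.1 hv with rfl | hvA
    · refine ⟨w, Multiset.mem_cons_self _ _, hxw, ?_⟩
      rw [Multiset.erase_cons_head] at hrest ⊢
      exact (Fits.drop_low hu' (by omega) hrest).cons _
    · refine ⟨v, Multiset.mem_cons_of_mem hvA, hxv, ?_⟩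
      rw [erase_cons_of_mem _ hvA] at hrest ⊢
      rw [Multiset.cons_swap] at hrest ⊢
      exact ih hu' hw' ha hrest

/-- A capacity below `3 u` holds at most two items. -/
lemma Fits.two_slots {u w : ℕ} {xs : List ℕ} (hu : ∀ x ∈ xs, u ≤ x) (hw : ∀ x ∈ xs, x ≤ w)
    {a : ℕ} {A : Multiset ℕ} (ha : a < 3 * u) (h : Fits xs (a ::ₘ A)) :
    Fits xs (w ::ₘ w ::ₘ A) := by
  induction xs generalizing a A with
  | nil => trivial
  | cons x xs ih =>
    have hux : u ≤ x := hu x (by simp)
    have hxw : x ≤ w := hw x (by simp)
    have hu' : ∀ y ∈ xs, u ≤ y := fun y hy => hu y (List.mem_cons_of_mem _ hy)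
    have hw' : ∀ y ∈ xs, y ≤ w := fun y hy => hw y (List.mem_cons_of_mem _ hy)
    obtain ⟨v, hv, hxv, hrest⟩ := h
    rcases Multiset.mem_cons.1 hv with rfl | hvA
    · refine ⟨w, Multiset.mem_cons_self _ _, hxw, ?_⟩
      rw [Multiset.erase_cons_head] at hrest
      rw [Multiset.erase_cons_head]
      exact (Fits.one_slot hu' hw' (by omega) hrest).cons _
    · have hvA' : v ∈ w ::ₘ A := Multiset.mem_cons_of_mem hvA
      refine ⟨v, Multiset.mem_cons_of_mem hvA', hxv, ?_⟩
      rw [erase_cons_of_mem _ hvA] at hrest
      rw [erase_cons_of_mem _ hvA', erase_cons_of_mem _ hvA]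
      have h3 : Fits xs (a ::ₘ ((v - x) ::ₘ A.erase v)) := by
        rw [Multiset.cons_swap]
        exact hrest
      have h4 := ih hu' hw' ha h3
      have e : (v - x) ::ₘ w ::ₘ w ::ₘ A.erase v = w ::ₘ w ::ₘ ((v - x) ::ₘ A.erase v) := by
        rw [Multiset.cons_swap, Multiset.cons_swap (v - x) w]
      rw [e]
      exact h4

/-- The canonical capacities. -/
def canon (u w c : ℕ) : List ℕ → List ℕ
  | [] => []
  | a :: l =>
    bif Nat.blt a u then canon u w c l else
      bif Nat.blt a (2 * u) then insS w (canon u w c l) else
        bif Nat.blt a (3 * u) then insS w (insS w (canon u w c l)) else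
          bif Nat.ble a c then insS c (canon u w c l) else insS a (canon u w c l)

lemma Fits.canon {u w c : ℕ} {xs : List ℕ} (hu : ∀ x ∈ xs, u ≤ x) (hw : ∀ x ∈ xs, x ≤ w)
    (l : List ℕ) (A : Multiset ℕ) (h : Fits xs ((l : Multiset ℕ) + A)) :
    Fits xs ((Vale.Agent.Lib.P302.canon u w c l : List ℕ) + A) := by
  induction l generalizing A with
  | nil => simpa [Vale.Agent.Lib.P302.canon] using h
  | cons a l ih =>
    have h0 : Fits xs (a ::ₘ ((l : Multiset ℕ) + A)) := by
      have e : ((a :: l : List ℕ) : Multiset ℕ) + A = a ::ₘ ((l : Multiset ℕ) + A) := by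
        rw [← Multiset.cons_coe, Multiset.cons_add]
      rwa [e] at h
    simp only [Vale.Agent.Lib.P302.canon]
    cases h1 : Nat.blt a u with
    | true =>
      have ha : a < u := by simpa [Nat.blt_eq] using h1
      exact ih A (Fits.drop_low hu ha h0)
    | false =>
      simp only [cond_false]
      cases h2 : Nat.blt a (2 * u) with
      | true =>
        have ha : a < 2 * u := by simpa [Nat.blt_eq] using h2
        have h3 := Fits.one_slot hu hw ha h0
        have h4 := ih (w ::ₘ A) (by
          have e : (l : Multiset ℕ) + w ::ₘ A = w ::ₘ ((l : Multiset ℕ) + A) := by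
            rw [Multiset.add_cons]
          rw [e]
          exact h3)
        simp only [cond_true]
        rw [insS_coe, Multiset.cons_add, ← Multiset.add_cons]
        exact h4
      | false =>
        simp only [cond_false]
        cases h5 : Nat.blt a (3 * u) with
        | true =>
          have ha : a < 3 * u := by simpa [Nat.blt_eq] using h5
          have h3 := Fits.two_slots hu hw ha h0
          have h4 := ih (w ::ₘ w ::ₘ A) (by
            have e : (l : Multiset ℕ) + w ::ₘ w ::ₘ A = w ::ₘ w ::ₘ ((l : Multiset ℕ) + A) := by
              rw [Multiset.add_cons, Multiset.add_cons]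
            rw [e]
            exact h3)
          simp only [cond_true]
          rw [insS_coe, insS_coe, Multiset.cons_add, Multiset.cons_add, ← Multiset.add_cons,
            ← Multiset.add_cons]
          exact h4
        | false =>
          simp only [cond_false]
          cases h6 : Nat.ble a c with
          | true =>
            have hac : a ≤ c := by simpa [Nat.ble_eq] using h6
            have h3 := Fits.mono_head hac h0
            have h4 := ih (c ::ₘ A) (by
              have e : (l : Multiset ℕ) + c ::ₘ A = c ::ₘ ((l : Multiset ℕ) + A) := by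
                rw [Multiset.add_cons]
              rw [e]
              exact h3)
            simp only [cond_true]
            rw [insS_coe, Multiset.cons_add, ← Multiset.add_cons]
            exact h4
          | false =>
            have h4 := ih (a ::ₘ A) (by
              have e : (l : Multiset ℕ) + a ::ₘ A = a ::ₘ ((l : Multiset ℕ) + A) := by
                rw [Multiset.add_cons]
              rw [e]
              exact h0)
            simp only [cond_false]
            rw [insS_coe, Multiset.cons_add, ← Multiset.add_cons]
            exact h4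

lemma Fits.canon' {u w c : ℕ} {xs : List ℕ} (hu : ∀ x ∈ xs, u ≤ x) (hw : ∀ x ∈ xs, x ≤ w)
    (l : List ℕ) (h : Fits xs (l : Multiset ℕ)) :
    Fits xs ((Vale.Agent.Lib.P302.canon u w c l : List ℕ) : Multiset ℕ) := by
  have := Fits.canon (c := c) hu hw l 0 (by simpa using h)
  simpa using this

/-- The capacities after placing an item; at the index `j` they are made canonical. -/
def childD (j u w c m x v i : ℕ) (bins : List ℕ) : List ℕ :=
  bif Nat.beq i j then Vale.Agent.Lib.P302.canon u w c (childC m x v bins) else childC m x v bins

/-- The check of one state of the certificate. -/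
def stepOK3 (S MS : List ℕ) (j u w c t B f : ℕ) (T : KTree) (k : ℕ) : Bool :=
  match S.drop (k % B) with
  | [] => false
  | x :: xs =>
    (dedupAux 0 (digits B f (k / B))).all fun v =>
      bif Nat.blt v x then true else
        childOK t B f T (k % B + 1) xs
          (childD j u w c (nth MS (k % B + 1)) x v (k % B + 1) (digits B f (k / B)))

/-- The items from position `j` on lie between `u` and `w`. -/
def rangeOK (S : List ℕ) (j u w : ℕ) : Bool :=
  (S.drop j).all (fun y => Nat.ble u y && Nat.ble y w)

/-- Soundness of the state check. -/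
theorem not_fits_of_closure3 {S MS : List ℕ} {j u w c t B f : ℕ} {T : KTree}
    (hpos : ∀ x ∈ S, 0 < x) (hms : msOK S MS = true) (hr : rangeOK S j u w = true)
    (h : T.all (stepOK3 S MS j u w c t B f T) = true) :
    ∀ n k, T.mem k = true → (S.drop (k % B)).length ≤ n →
      ¬ Fits (S.drop (k % B)) ((digits B f (k / B) : List ℕ) : Multiset ℕ) := by
  intro n
  induction n with
  | zero =>
    intro k hk hlen
    have h1 := KTree.all_of_mem h hk
    have h0 : S.drop (k % B) = [] := List.length_eq_zero_iff.1 (by omega)
    simp [stepOK3, h0] at h1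
  | succ n ih =>
    intro k hk hlen hfits
    have h1 := KTree.all_of_mem h hk
    cases hd : S.drop (k % B) with
    | nil => simp [stepOK3, hd] at h1
    | cons x xs =>
      simp only [stepOK3, hd] at h1
      rw [hd] at hfits
      have hdrop1 : S.drop (k % B + 1) = xs := by
        rw [← List.drop_drop, hd]
        simp
      have hxsm : ∀ y ∈ xs, nth MS (k % B + 1) ≤ y := by
        intro y hy
        apply msOK_spec hms
        rw [hdrop1]
        exact hy
      have hx0 : 0 < x := by
        apply hpos
        have : x ∈ S.drop (k % B) := by rw [hd]; exact List.mem_cons_self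
        exact List.mem_of_mem_drop this
      obtain ⟨v, hv, hxv, hrest⟩ := hfits
      have hvl : v ∈ digits B f (k / B) := by simpa using hv
      have hvpos : v ≠ 0 := by omega
      have hv2 : v ∈ dedupAux 0 (digits B f (k / B)) := by
        rcases mem_dedupAux (p := 0) hvl with h0 | h0
        · exact absurd h0 hvpos
        · exact h0
      have h2 := List.all_eq_true.1 h1 v hv2
      have hnb : Nat.blt v x = false := by
        cases hb : Nat.blt v x with
        | false => rfl
        | true =>
          have : v < x := by simpa [Nat.blt_eq] using hb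
          omega
      rw [hnb] at h2
      simp only [cond_false] at h2
      have hc0 := Fits.childC (m := nth MS (k % B + 1)) hxsm hrest
      have hc : Fits xs ((childD j u w c (nth MS (k % B + 1)) x v (k % B + 1)
          (digits B f (k / B)) : List ℕ) : Multiset ℕ) := by
        unfold childD
        cases hi : Nat.beq (k % B + 1) j with
        | false => simpa using hc0
        | true =>
          have e := Nat.eq_of_beq_eq_true hi
          simp only [cond_true]
          have hr2 : ∀ y ∈ xs, u ≤ y ∧ y ≤ w := by
            intro y hy
            have hy2 : y ∈ S.drop j := by rw [← e, hdrop1]; exact hy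
            have := List.all_eq_true.1 hr y hy2
            simpa [Nat.ble_eq] using this
          exact Fits.canon' (fun y hy => (hr2 y hy).1) (fun y hy => (hr2 y hy).2) _ hc0
      set d := childD j u w c (nth MS (k % B + 1)) x v (k % B + 1) (digits B f (k / B)) with hddef
      simp only [childOK] at h2
      have hnb2 : Nat.blt (sumN d) (sumN xs) = false := by
        cases hb : Nat.blt (sumN d) (sumN xs) with
        | false => rfl
        | true =>
          have h7 : sumN d < sumN xs := by simpa [Nat.blt_eq] using hb
          rw [sumN_eq, sumN_eq] at h7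
          have := hc.sum_le
          simp only [Multiset.sum_coe] at this
          omega
      rw [hnb2] at h2
      simp only [cond_false] at h2
      have hnb3 : Nat.blt (sumDiv t d) (sumDiv t xs) = false := by
        cases hb : Nat.blt (sumDiv t d) (sumDiv t xs) with
        | false => rfl
        | true =>
          have h7 : sumDiv t d < sumDiv t xs := by simpa [Nat.blt_eq] using hb
          have := hc.sumDiv_le t
          rw [← sumDiv_eq] at this
          omega
      rw [hnb3] at h2
      simp only [cond_false, Bool.and_eq_true] at h2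
      obtain ⟨h3, h4, h5⟩ := h2
      have e1 := Nat.eq_of_beq_eq_true h4
      have e2 := listEq_eq h5
      set k' := (k % B + 1) + B * encBins B d with hk'
      have hdrop : S.drop (k' % B) = xs := by
        rw [e1, hdrop1]
      have hlen' : (S.drop (k' % B)).length ≤ n := by
        rw [hdrop]
        rw [hd] at hlen
        simpa using hlen
      have := ih k' h3 hlen'
      apply this
      rw [hdrop, e2]
      exact hc

/-- Refuting a packing by a closure certificate. -/
theorem not_packable_of_memo3 (S MS : List ℕ) (L K j u w c t B f : ℕ) (T : KTree) (hL : 0 < L)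
    (h : memoPre S MS L K B f T = true) (hr : rangeOK S j u w = true)
    (h5 : T.all (stepOK3 S MS j u w c t B f T) = true) :
    ¬ Packable (S.map (fun n : ℕ => (n : ℚ) / L)) K := by
  intro hp
  simp only [memoPre, Bool.and_eq_true, List.all_eq_true] at h
  obtain ⟨⟨⟨⟨h0, h1⟩, h2⟩, h3⟩, h4⟩ := h
  have hpos : ∀ x ∈ S, 0 < x := fun x hx => by simpa [Nat.blt_eq] using h0 x hx
  have hfits := fits_of_packable S L K hL hp
  have e1 := Nat.eq_of_beq_eq_true h3
  have e2 := listEq_eq h4
  have := not_fits_of_closure3 hpos h1 hr h5 _ _ h2 le_rfl
  apply this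
  rw [e1, e2]
  simpa using hfits

end Vale.Agent.Lib.P302
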