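import Mathlib
import Vale.Agent.Lib.P302.Memo3

/-!
A fourth closure certificate refuting packings: as the third one, and capacities may be rounded up
to the next entry of a search tree given for each position in the list of items.
-/

namespace Vale.Agent.Lib.P302

/-- The least key of the tree at least `v`, or `b` if there is none. -/
def succG : KTree → ℕ → ℕ → ℕ
  | .leaf, _, b => b
  | .node l k r, v, b => bif Nat.ble v k then succG l v k else succG r v b

lemma le_succG (T : KTree) (v b : ℕ) (h : v ≤ b) : v ≤ succG T v b := by
  induction T generalizing b with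
  | leaf => exact h
  | node l k r ihl ihr =>
    simp only [succG]
    cases hb : Nat.ble v k with
    | true =>
      simp only [cond_true]
      exact ihl k (by simpa [Nat.ble_eq] using hb)
    | false =>
      simp only [cond_false]
      exact ihr b h

/-- Rounding up all capacities. -/
def roundL (G : KTree) : List ℕ → List ℕ
  | [] => []
  | a :: l => succG G a a :: roundL G l

lemma Fits.roundL (G : KTree) {xs : List ℕ} (l : List ℕ) (A : Multiset ℕ)
    (h : Fits xs ((l : Multiset ℕ) + A)) :
    Fits xs ((Vale.Agent.Lib.P302.roundL G l : List ℕ) + A) := by
  induction l generalizing A with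
  | nil => simpa [Vale.Agent.Lib.P302.roundL] using h
  | cons a l ih =>
    have h0 : Fits xs (a ::ₘ ((l : Multiset ℕ) + A)) := by
      have e : ((a :: l : List ℕ) : Multiset ℕ) + A = a ::ₘ ((l : Multiset ℕ) + A) := by
        rw [← Multiset.cons_coe, Multiset.cons_add]
      rwa [e] at h
    have h3 := Fits.mono_head (le_succG G a a le_rfl) h0
    have h4 := ih (succG G a a ::ₘ A) (by
      have e : (l : Multiset ℕ) + succG G a a ::ₘ A = succG G a a ::ₘ ((l : Multiset ℕ) + A) := by
        rw [Multiset.add_cons]
      rw [e]
      exact h3)
    simp only [Vale.Agent.Lib.P302.roundL]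
    rw [← Multiset.cons_coe, Multiset.cons_add, ← Multiset.add_cons]
    exact h4

lemma Fits.roundL' (G : KTree) {xs : List ℕ} (l : List ℕ) (h : Fits xs (l : Multiset ℕ)) :
    Fits xs ((Vale.Agent.Lib.P302.roundL G l : List ℕ) : Multiset ℕ) := by
  have := Fits.roundL G l 0 (by simpa using h)
  simpa using this

/-- Entry of a list of trees at a position, with an empty tree as default. -/
def nthG : List KTree → ℕ → KTree
  | [], _ => .leaf
  | a :: _, 0 => a
  | _ :: l, i + 1 => nthG l i

/-- The capacities after placing an item: rounded up, and made canonical at the index `j`. -/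
def childE (GS : List KTree) (j u w c m x v i : ℕ) (bins : List ℕ) : List ℕ :=
  bif Nat.beq i j then Vale.Agent.Lib.P302.canon u w c (childC m x v bins) else
    Vale.Agent.Lib.P302.roundL (nthG GS i) (childC m x v bins)

/-- The check of one state of the certificate. -/
def stepOK4 (S MS : List ℕ) (GS : List KTree) (j u w c t B f : ℕ) (T : KTree) (k : ℕ) : Bool :=
  match S.drop (k % B) with
  | [] => false
  | x :: xs =>
    (dedupAux 0 (digits B f (k / B))).all fun v =>
      bif Nat.blt v x then true else
        childOK t B f T (k % B + 1) xs
          (childE GS j u w c (nth MS (k % B + 1)) x v (k % B + 1) (digits B f (k / B)))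

/-- Soundness of the state check. -/
theorem not_fits_of_closure4 {S MS : List ℕ} {GS : List KTree} {j u w c t B f : ℕ} {T : KTree}
    (hpos : ∀ x ∈ S, 0 < x) (hms : msOK S MS = true) (hr : rangeOK S j u w = true)
    (h : T.all (stepOK4 S MS GS j u w c t B f T) = true) :
    ∀ n k, T.mem k = true → (S.drop (k % B)).length ≤ n →
      ¬ Fits (S.drop (k % B)) ((digits B f (k / B) : List ℕ) : Multiset ℕ) := by
  intro n
  induction n with
  | zero =>
    intro k hk hlen
    have h1 := KTree.all_of_mem h hk
    have h0 : S.drop (k % B) = [] := List.length_eq_zero_iff.1 (by omega)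
    simp [stepOK4, h0] at h1
  | succ n ih =>
    intro k hk hlen hfits
    have h1 := KTree.all_of_mem h hk
    cases hd : S.drop (k % B) with
    | nil => simp [stepOK4, hd] at h1
    | cons x xs =>
      simp only [stepOK4, hd] at h1
      rw [hd] at hfits
      have hdrop1 : S.drop (k % B + 1) = xs := by
        rw [← List.drop_drop, hd]
        simp
      have hxsm : ∀ y ∈ xs, nth MS (k % B + 1) ≤ y := by
        intro y hy
        apply msOK_spec hms
        rw [hdrop1]
        exact hy
      have hx0 : 0 < x := by
        apply hpos
        have : x ∈ S.drop (k % B) := by rw [hd]; exact List.mem_cons_self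
        exact List.mem_of_mem_drop this
      obtain ⟨v, hv, hxv, hrest⟩ := hfits
      have hvl : v ∈ digits B f (k / B) := by simpa using hv
      have hvpos : v ≠ 0 := by omega
      have hv2 : v ∈ dedupAux 0 (digits B f (k / B)) := by
        rcases mem_dedupAux (p := 0) hvl with h0 | h0
        · exact absurd h0 hvpos
        · exact h0
      have h2 := List.all_eq_true.1 h1 v hv2
      have hnb : Nat.blt v x = false := by
        cases hb : Nat.blt v x with
        | false => rfl
        | true =>
          have : v < x := by simpa [Nat.blt_eq] using hb
          omega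
      rw [hnb] at h2
      simp only [cond_false] at h2
      have hc0 := Fits.childC (m := nth MS (k % B + 1)) hxsm hrest
      have hc : Fits xs ((childE GS j u w c (nth MS (k % B + 1)) x v (k % B + 1)
          (digits B f (k / B)) : List ℕ) : Multiset ℕ) := by
        unfold childE
        cases hi : Nat.beq (k % B + 1) j with
        | false =>
          simp only [cond_false]
          exact Fits.roundL' _ _ hc0
        | true =>
          have e := Nat.eq_of_beq_eq_true hi
          simp only [cond_true]
          have hr2 : ∀ y ∈ xs, u ≤ y ∧ y ≤ w := by
            intro y hy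
            have hy2 : y ∈ S.drop j := by rw [← e, hdrop1]; exact hy
            have := List.all_eq_true.1 hr y hy2
            simpa [Nat.ble_eq] using this
          exact Fits.canon' (fun y hy => (hr2 y hy).1) (fun y hy => (hr2 y hy).2) _ hc0
      set d := childE GS j u w c (nth MS (k % B + 1)) x v (k % B + 1) (digits B f (k / B))
        with hddef
      simp only [childOK] at h2
      have hnb2 : Nat.blt (sumN d) (sumN xs) = false := by
        cases hb : Nat.blt (sumN d) (sumN xs) with
        | false => rfl
        | true =>
          have h7 : sumN d < sumN xs := by simpa [Nat.blt_eq] using hb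
          rw [sumN_eq, sumN_eq] at h7
          have := hc.sum_le
          simp only [Multiset.sum_coe] at this
          omega
      rw [hnb2] at h2
      simp only [cond_false] at h2
      have hnb3 : Nat.blt (sumDiv t d) (sumDiv t xs) = false := by
        cases hb : Nat.blt (sumDiv t d) (sumDiv t xs) with
        | false => rfl
        | true =>
          have h7 : sumDiv t d < sumDiv t xs := by simpa [Nat.blt_eq] using hb
          have := hc.sumDiv_le t
          rw [← sumDiv_eq] at this
          omega
      rw [hnb3] at h2
      simp only [cond_false, Bool.and_eq_true] at h2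
      obtain ⟨h3, h4, h5⟩ := h2
      have e1 := Nat.eq_of_beq_eq_true h4
      have e2 := listEq_eq h5
      set k' := (k % B + 1) + B * encBins B d with hk'
      have hdrop : S.drop (k' % B) = xs := by
        rw [e1, hdrop1]
      have hlen' : (S.drop (k' % B)).length ≤ n := by
        rw [hdrop]
        rw [hd] at hlen
        simpa using hlen
      have := ih k' h3 hlen'
      apply this
      rw [hdrop, e2]
      exact hc

/-- Refuting a packing by a closure certificate. -/
theorem not_packable_of_memo4 (S MS : List ℕ) (GS : List KTree) (L K j u w c t B f : ℕ) (T : KTree)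
    (hL : 0 < L) (h : memoPre S MS L K B f T = true) (hr : rangeOK S j u w = true)
    (h5 : T.all (stepOK4 S MS GS j u w c t B f T) = true) :
    ¬ Packable (S.map (fun n : ℕ => (n : ℚ) / L)) K := by
  intro hp
  simp only [memoPre, Bool.and_eq_true, List.all_eq_true] at h
  obtain ⟨⟨⟨⟨h0, h1⟩, h2⟩, h3⟩, h4⟩ := h
  have hpos : ∀ x ∈ S, 0 < x := fun x hx => by simpa [Nat.blt_eq] using h0 x hx
  have hfits := fits_of_packable S L K hL hp
  have e1 := Nat.eq_of_beq_eq_true h3
  have e2 := listEq_eq h4
  have := not_fits_of_closure4 hpos h1 hr h5 _ _ h2 le_rfl
  apply this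
  rw [e1, e2]
  simpa using hfits

end Vale.Agent.Lib.P302
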